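import Vale.Agent.Lib.P036.Chain

/-! P036 (Heilbronn's triangle problem): point sets on few convex arcs. -/

namespace Vale.Agent.P036

open Finset

theorem arcs {k : ℕ} (hk : 0 < k) (P : Finset (ℝ × ℝ))
    (hP : ∀ p ∈ P, p.1 ∈ Set.Icc (0 : ℝ) 1 ∧ p.2 ∈ Set.Icc (0 : ℝ) 1) (S : Fin k → Set ℝ)
    (g : Fin k → ℝ → ℝ)
    (hmono : ∀ j, MonotoneOn (g j) (S j) ∨ AntitoneOn (g j) (S j))
    (hconv : ∀ j, ConvexOn ℝ (S j) (g j) ∨ ConcaveOn ℝ (S j) (g j))
    (hcov : ∀ p ∈ P, ∃ j, p.1 ∈ S j ∧ p.2 = g j p.1) (hn : 4 * k ≤ P.card) :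
    ∃ p ∈ P, ∃ q ∈ P, ∃ r ∈ P, p ≠ q ∧ p ≠ r ∧ q ≠ r ∧
      area p q r ≤ 500 * ((k : ℝ) / P.card) ^ 3 := by
  classical
  let Q : Fin k → Finset (ℝ × ℝ) := fun j => P.filter fun p => p.1 ∈ S j ∧ p.2 = g j p.1
  obtain ⟨j, hj⟩ : ∃ j, P.card ≤ k * (Q j).card := by
    by_contra hcon
    push Not at hcon
    have h1 : P ⊆ univ.biUnion Q := by
      intro p hp
      obtain ⟨j, hj⟩ := hcov p hp
      exact Finset.mem_biUnion.2 ⟨j, Finset.mem_univ _, Finset.mem_filter.2 ⟨hp, hj⟩⟩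
    have h2 : P.card ≤ ∑ j, (Q j).card := (Finset.card_le_card h1).trans Finset.card_biUnion_le
    have h3 : k * ∑ j, (Q j).card < k * P.card := by
      rw [Finset.mul_sum]
      calc ∑ j, k * (Q j).card < ∑ _j : Fin k, P.card :=
            Finset.sum_lt_sum_of_nonempty ⟨⟨0, hk⟩, Finset.mem_univ _⟩ fun j _ => hcon j
        _ = k * P.card := by simp
    have h4 := Nat.lt_of_mul_lt_mul_left h3
    omega
  have hQmem : ∀ p ∈ Q j, p ∈ P ∧ p.1 ∈ S j ∧ p.2 = g j p.1 := fun p hp => Finset.mem_filter.1 hp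
  set X : Finset ℝ := (Q j).image Prod.fst with hX
  have hXcard : X.card = (Q j).card := by
    refine Finset.card_image_of_injOn ?_
    intro p hp q hq hpq
    have h1 := (hQmem p hp).2.2
    have h2 := (hQmem q hq).2.2
    have hpq' : p.1 = q.1 := hpq
    refine Prod.ext hpq' ?_
    rw [h1, h2, hpq']
  have hXS : ∀ t ∈ X, t ∈ S j := by
    intro t ht
    obtain ⟨p, hp, rfl⟩ := Finset.mem_image.1 ht
    exact (hQmem p hp).2.1
  have hXmem : ∀ t ∈ X, (t, g j t) ∈ P := by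
    intro t ht
    obtain ⟨p, hp, rfl⟩ := Finset.mem_image.1 ht
    obtain ⟨h1, _, h2⟩ := hQmem p hp
    have : (p.1, g j p.1) = p := Prod.ext rfl h2.symm
    rw [this]
    exact h1
  have hr4 : 4 ≤ X.card := by
    rw [hXcard]
    by_contra hcon
    have h1 : (Q j).card ≤ 3 := by omega
    have h2 : k * (Q j).card ≤ k * 3 := Nat.mul_le_mul_left k h1
    omega
  let e := X.orderEmbOfFin rfl
  let x : ℕ → ℝ := fun i => if h : i < X.card then e ⟨i, h⟩ else 0
  have hxe : ∀ i (h : i < X.card), x i = e ⟨i, h⟩ := fun i h => dif_pos h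
  have hxX : ∀ i, i < X.card → x i ∈ X := by
    intro i h
    rw [hxe i h]
    exact Finset.orderEmbOfFin_mem X rfl _
  obtain ⟨M, hM⟩ : ∃ M, X.card = M + 2 := ⟨X.card - 2, by omega⟩
  have hM0 : 0 < M := by omega
  have hlt : ∀ i ≤ M, x i < x (i + 1) := by
    intro i hi
    rw [hxe i (by omega), hxe (i + 1) (by omega)]
    exact e.strictMono (by
      rw [Fin.lt_def]
      show i < i + 1
      omega)
  obtain ⟨i, hi, harea⟩ := chain_fun (hmono j) (hconv j) hM0 (x := x)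
    (fun i hi => hXS _ (hxX i (by omega)))
    (fun i hi => (hP _ (hXmem _ (hxX i (by omega)))).1) hlt
    (fun i hi => (hP _ (hXmem _ (hxX i (by omega)))).2)
  have hl1 := hlt i hi.le
  have hl2 := hlt (i + 1) hi
  refine ⟨_, hXmem _ (hxX i (by omega)), _, hXmem _ (hxX (i + 1) (by omega)), _,
    hXmem _ (hxX (i + 2) (by omega)), ?_, ?_, ?_, harea.trans ?_⟩
  · intro h
    have : x i = x (i + 1) := congrArg Prod.fst h
    linarith
  · intro h
    have h1 : x i = x (i + 2) := congrArg Prod.fst h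
    have h2 : x (i + 1) < x (i + 2) := hl2
    linarith
  · intro h
    have h1 : x (i + 1) = x (i + 2) := congrArg Prod.fst h
    have h2 : x (i + 1) < x (i + 2) := hl2
    linarith
  · have hMr : (0 : ℝ) < M := by exact_mod_cast hM0
    have hkr : (0 : ℝ) < k := by exact_mod_cast hk
    have hPr : (0 : ℝ) < P.card := by
      have : 0 < P.card := by omega
      exact_mod_cast this
    have h1 : (P.card : ℝ) ≤ k * (M + 2) := by
      have : P.card ≤ k * (M + 2) := by rw [← hM, hXcard]; exact hj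
      exact_mod_cast this
    have h2 : (M : ℝ) + 2 ≤ 2 * M := by
      have : M + 2 ≤ 2 * M := by omega
      exact_mod_cast this
    have h3 : (5 : ℝ) / M ≤ 10 * ((k : ℝ) / P.card) := by
      rw [mul_div_assoc', div_le_div_iff₀ hMr hPr]
      nlinarith
    have h4 : (5 / (M : ℝ)) ^ 3 ≤ (10 * ((k : ℝ) / P.card)) ^ 3 :=
      pow_le_pow_left₀ (by positivity) h3 3
    calc (5 / (M : ℝ)) ^ 3 / 2 ≤ (10 * ((k : ℝ) / P.card)) ^ 3 / 2 := by linarith
      _ = 500 * ((k : ℝ) / P.card) ^ 3 := by ring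

end Vale.Agent.P036
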