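import Mathlib

/-! P036 (Heilbronn's triangle problem): point sets on few convex arcs. -/

namespace Vale.Agent.P036

open Finset

/-- sequences: the edge vectors `(u i, V i)` of a monotone convex (or concave) chain -/
theorem chain_seq {u V : ℕ → ℝ} {M : ℕ} (hM : 0 < M) (hu : ∀ i ≤ M, 0 < u i)
    (hV : ∀ i ≤ M, 0 ≤ V i) (hsu : ∑ i ∈ range (M + 1), u i ≤ 1)
    (hsV : ∑ i ∈ range (M + 1), V i ≤ 1)
    (hD : (∀ i < M, 0 ≤ u i * V (i + 1) - u (i + 1) * V i) ∨
      (∀ i < M, u i * V (i + 1) - u (i + 1) * V i ≤ 0)) :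
    ∃ i < M, |u i * V (i + 1) - u (i + 1) * V i| ≤ (5 / M) ^ 3 := by
  have hMr : (0 : ℝ) < M := by exact_mod_cast hM
  let w : ℕ → ℝ := fun i => u i + V i
  let σ : ℕ → ℝ := fun i => V i / (u i + V i)
  let δ : ℕ → ℝ := fun i => |σ (i + 1) - σ i|
  have hw : ∀ i ≤ M, 0 < w i := fun i hi => add_pos_of_pos_of_nonneg (hu i hi) (hV i hi)
  have hσ0 : ∀ i ≤ M, 0 ≤ σ i := fun i hi => div_nonneg (hV i hi) (hw i hi).le
  have hσ1 : ∀ i ≤ M, σ i ≤ 1 := fun i hi =>
    (div_le_one (hw i hi)).2 (le_add_of_nonneg_left (hu i hi).le)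
  have hid : ∀ i < M, u i * V (i + 1) - u (i + 1) * V i = w i * w (i + 1) * (σ (i + 1) - σ i) := by
    intro i hi
    have h1 : u i + V i ≠ 0 := (hw i hi.le).ne'
    have h2 : u (i + 1) + V (i + 1) ≠ 0 := (hw (i + 1) hi).ne'
    show _ = (u i + V i) * (u (i + 1) + V (i + 1))
      * (V (i + 1) / (u (i + 1) + V (i + 1)) - V i / (u i + V i))
    field_simp
    ring
  have hδ : ∑ i ∈ range M, δ i ≤ 1 := by
    have htel : ∑ i ∈ range M, (σ (i + 1) - σ i) = σ M - σ 0 := Finset.sum_range_sub σ M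
    have h0 := hσ0 0 (Nat.zero_le M)
    have h1 := hσ1 0 (Nat.zero_le M)
    have h2 := hσ0 M le_rfl
    have h3 := hσ1 M le_rfl
    rcases hD with hD | hD
    · have : ∑ i ∈ range M, δ i = ∑ i ∈ range M, (σ (i + 1) - σ i) := by
        refine Finset.sum_congr rfl fun i hi => ?_
        rw [Finset.mem_range] at hi
        have h4 := hD i hi
        rw [hid i hi] at h4
        exact abs_of_nonneg (nonneg_of_mul_nonneg_right h4 (mul_pos (hw i hi.le) (hw _ hi)))
      rw [this, htel]
      linarith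
    · have : ∑ i ∈ range M, δ i = -∑ i ∈ range M, (σ (i + 1) - σ i) := by
        rw [← Finset.sum_neg_distrib]
        refine Finset.sum_congr rfl fun i hi => ?_
        rw [Finset.mem_range] at hi
        have h4 := hD i hi
        rw [hid i hi] at h4
        refine abs_of_nonpos ?_
        by_contra hcon
        push Not at hcon
        have := mul_pos (mul_pos (hw i hi.le) (hw _ hi)) hcon
        linarith
      rw [this, htel]
      linarith
  have hs1 : ∑ i ∈ range M, w i ≤ 2 := by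
    have h1 : ∑ i ∈ range M, w i ≤ ∑ i ∈ range (M + 1), w i := by
      rw [Finset.sum_range_succ]
      linarith [hw M le_rfl]
    have h2 : ∑ i ∈ range (M + 1), w i
        = ∑ i ∈ range (M + 1), u i + ∑ i ∈ range (M + 1), V i := Finset.sum_add_distrib
    linarith
  have hs2 : ∑ i ∈ range M, w (i + 1) ≤ 2 := by
    have h1 : ∑ i ∈ range M, w (i + 1) ≤ ∑ i ∈ range (M + 1), w i := by
      rw [Finset.sum_range_succ']
      linarith [hw 0 (Nat.zero_le M)]
    have h2 : ∑ i ∈ range (M + 1), w i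
        = ∑ i ∈ range (M + 1), u i + ∑ i ∈ range (M + 1), V i := Finset.sum_add_distrib
    linarith
  obtain ⟨i, hi, hsmall⟩ : ∃ i < M, w i + w (i + 1) + δ i ≤ 5 / M := by
    by_contra hcon
    push Not at hcon
    have h1 : ∑ i ∈ range M, (5 / (M : ℝ)) < ∑ i ∈ range M, (w i + w (i + 1) + δ i) :=
      Finset.sum_lt_sum_of_nonempty (Finset.nonempty_range_iff.2 hM.ne')
        fun i hi => hcon i (Finset.mem_range.1 hi)
    rw [Finset.sum_const, Finset.card_range, nsmul_eq_mul, Finset.sum_add_distrib,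
      Finset.sum_add_distrib, mul_div_cancel₀ _ hMr.ne'] at h1
    linarith
  refine ⟨i, hi, ?_⟩
  have ha := hw i hi.le
  have hb := hw (i + 1) hi
  have hc : 0 ≤ δ i := abs_nonneg _
  rw [hid i hi, abs_mul, abs_of_pos (mul_pos ha hb)]
  have hB : (0 : ℝ) ≤ 5 / M := by positivity
  calc w i * w (i + 1) * |σ (i + 1) - σ i| ≤ (5 / M) * (5 / M) * (5 / M) := by
        refine mul_le_mul (mul_le_mul (by linarith) (by linarith) hb.le hB) ?_ hc (by positivity)
        show δ i ≤ 5 / M
        linarith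
    _ = (5 / M) ^ 3 := by ring

/-- area of a triangle -/
noncomputable def area (p q r : ℝ × ℝ) : ℝ :=
  |(q.1 - p.1) * (r.2 - p.2) - (r.1 - p.1) * (q.2 - p.2)| / 2

/-- points on the graph of one monotone convex or concave function -/
theorem chain_fun {g : ℝ → ℝ} {S : Set ℝ} (hmono : MonotoneOn g S ∨ AntitoneOn g S)
    (hconv : ConvexOn ℝ S g ∨ ConcaveOn ℝ S g) {M : ℕ} (hM : 0 < M)
    {x : ℕ → ℝ} (hxS : ∀ i ≤ M + 1, x i ∈ S) (hx : ∀ i ≤ M + 1, x i ∈ Set.Icc (0 : ℝ) 1)
    (hlt : ∀ i ≤ M, x i < x (i + 1))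
    (hg : ∀ i ≤ M + 1, g (x i) ∈ Set.Icc (0 : ℝ) 1) :
    ∃ i < M, area (x i, g (x i)) (x (i + 1), g (x (i + 1))) (x (i + 2), g (x (i + 2)))
      ≤ (5 / M) ^ 3 / 2 := by
  have key : ∀ ε : ℝ, (ε = 1 ∨ ε = -1) → (∀ i ≤ M, 0 ≤ ε * (g (x (i + 1)) - g (x i))) →
      ∃ i < M, area (x i, g (x i)) (x (i + 1), g (x (i + 1))) (x (i + 2), g (x (i + 2)))
        ≤ (5 / M) ^ 3 / 2 := by
    intro ε hε hpos
    have hslope : (∀ i < M, (x (i + 2) - x (i + 1)) * (g (x (i + 1)) - g (x i))
        ≤ (x (i + 1) - x i) * (g (x (i + 2)) - g (x (i + 1)))) ∨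
        (∀ i < M, (x (i + 1) - x i) * (g (x (i + 2)) - g (x (i + 1)))
        ≤ (x (i + 2) - x (i + 1)) * (g (x (i + 1)) - g (x i))) := by
      rcases hconv with hc | hc
      · left
        intro i hi
        have h1 := hc.slope_mono_adjacent (hxS i (by omega)) (hxS (i + 2) (by omega))
          (hlt i hi.le) (hlt (i + 1) hi)
        rw [div_le_div_iff₀ (sub_pos.2 (hlt i hi.le)) (sub_pos.2 (hlt (i + 1) hi))] at h1
        linarith
      · right
        intro i hi
        have h1 := hc.slope_anti_adjacent (hxS i (by omega)) (hxS (i + 2) (by omega))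
          (hlt i hi.le) (hlt (i + 1) hi)
        rw [div_le_div_iff₀ (sub_pos.2 (hlt (i + 1) hi)) (sub_pos.2 (hlt i hi.le))] at h1
        linarith
    have hsu : ∑ i ∈ range (M + 1), (x (i + 1) - x i) ≤ 1 := by
      rw [Finset.sum_range_sub x (M + 1)]
      linarith [(hx 0 (Nat.zero_le _)).1, (hx (M + 1) le_rfl).2]
    have hsV : ∑ i ∈ range (M + 1), ε * (g (x (i + 1)) - g (x i)) ≤ 1 := by
      rw [← Finset.mul_sum, Finset.sum_range_sub (fun i => g (x i)) (M + 1)]
      have h1 := hg 0 (Nat.zero_le _)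
      have h2 := hg (M + 1) le_rfl
      rcases hε with h | h <;> rw [h] <;> linarith [h1.1, h1.2, h2.1, h2.2]
    have hDs : (∀ i < M, 0 ≤ (x (i + 1) - x i) * (ε * (g (x (i + 1 + 1)) - g (x (i + 1))))
          - (x (i + 1 + 1) - x (i + 1)) * (ε * (g (x (i + 1)) - g (x i)))) ∨
        (∀ i < M, (x (i + 1) - x i) * (ε * (g (x (i + 1 + 1)) - g (x (i + 1))))
          - (x (i + 1 + 1) - x (i + 1)) * (ε * (g (x (i + 1)) - g (x i))) ≤ 0) := by
      rcases hε with h | h <;> rcases hslope with hs | hs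
      · left
        intro i hi
        have := hs i hi
        rw [h]
        linarith
      · right
        intro i hi
        have := hs i hi
        rw [h]
        linarith
      · right
        intro i hi
        have := hs i hi
        rw [h]
        linarith
      · left
        intro i hi
        have := hs i hi
        rw [h]
        linarith
    obtain ⟨i, hi, hsmall⟩ := chain_seq (u := fun i => x (i + 1) - x i)
      (V := fun i => ε * (g (x (i + 1)) - g (x i))) hM
      (fun i hi => sub_pos.2 (hlt i hi)) hpos hsu hsV hDs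
    refine ⟨i, hi, ?_⟩
    unfold area
    refine div_le_div_of_nonneg_right ?_ (by norm_num)
    refine le_trans (le_of_eq ?_) hsmall
    have hε1 : |ε| = 1 := by
      rcases hε with h | h <;> rw [h] <;> norm_num
    have e1 : (x (i + 1) - x i) * (ε * (g (x (i + 1 + 1)) - g (x (i + 1))))
          - (x (i + 1 + 1) - x (i + 1)) * (ε * (g (x (i + 1)) - g (x i)))
        = ε * ((x (i + 1) - x i) * (g (x (i + 2)) - g (x i))
          - (x (i + 2) - x i) * (g (x (i + 1)) - g (x i))) := by ring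
    show |(x (i + 1) - x i) * (g (x (i + 2)) - g (x i))
      - (x (i + 2) - x i) * (g (x (i + 1)) - g (x i))| = _
    rw [e1, abs_mul, hε1, one_mul]
  rcases hmono with hm | hm
  · refine key 1 (Or.inl rfl) fun i hi => ?_
    have := hm (hxS i (by omega)) (hxS (i + 1) (by omega)) (hlt i hi).le
    linarith
  · refine key (-1) (Or.inr rfl) fun i hi => ?_
    have := hm (hxS i (by omega)) (hxS (i + 1) (by omega)) (hlt i hi).le
    linarith

end Vale.Agent.P036
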